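import Mathlib
import Vale.Agent.Lib.P065.Defs
import Vale.Agent.Lib.P065.Vertex
import Vale.Agent.Lib.P065.Perturb

namespace Vale.Agent.Lib.P065

open scoped Classical
open Finset

/-- Sums over ordered halving pairs as double sums with an indicator. -/
theorem sum_halving_pairs (P : Finset (ℝ × ℝ)) (f : ℝ × ℝ → ℝ × ℝ → ℝ) :
    ∑ pq ∈ P.offDiag.filter (fun pq => IsHalving P pq.1 pq.2), f pq.1 pq.2 =
      ∑ b ∈ P, ∑ q ∈ P, (if IsHalving P b q then f b q else 0) := by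
  have h : P.offDiag.filter (fun pq => IsHalving P pq.1 pq.2) =
      (P ×ˢ P).filter (fun pq => IsHalving P pq.1 pq.2) := by
    ext ⟨p, q⟩
    simp only [Finset.mem_filter, Finset.mem_offDiag, Finset.mem_product]
    constructor
    · rintro ⟨⟨hp, hq, _⟩, h⟩; exact ⟨⟨hp, hq⟩, h⟩
    · rintro ⟨⟨hp, hq⟩, h⟩; exact ⟨⟨hp, hq, h.1⟩, h⟩
  rw [h, Finset.sum_filter, Finset.sum_product]

/-- Weighted double count of the vertex lemma: every point `b` of `P` carries a weight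
`w b ≥ 0` and a direction `V b`; if the gain `g` of a pair is dominated as in the hypotheses,
the total gain over the ordered halving pairs is at most twice the total weight. -/
theorem weighted_count (P : Finset (ℝ × ℝ)) (hP : GenPos P)
    (w : ℝ × ℝ → ℝ) (V : ℝ × ℝ → ℝ × ℝ) (g : ℝ × ℝ → ℝ × ℝ → ℝ)
    (hw : ∀ b ∈ P, 0 ≤ w b)
    (hsum : ∀ b ∈ P, ∀ q ∈ P, b ≠ q → 0 < xc b (V b) q + xc q (V q) b)
    (hneg : ∀ b ∈ P, ∀ q ∈ P, b ≠ q → xc b (V b) q ≤ 0 → g b q ≤ w q - w b)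
    (hpos : ∀ b ∈ P, ∀ q ∈ P, b ≠ q → g b q ≤ w b + w q)
    (hsymm : ∀ b q, g b q = g q b) :
    ∑ pq ∈ P.offDiag.filter (fun pq => IsHalving P pq.1 pq.2), g pq.1 pq.2 ≤
      2 * ∑ b ∈ P, w b := by
  have hex : ∀ b : ℝ × ℝ, ∃ v' : ℝ × ℝ, b ∈ P →
      ((∀ q ∈ P, q ≠ b → xc b v' q ≠ 0) ∧
        (∀ q ∈ P, q ≠ b → 0 < xc b (V b) q → 0 < xc b v' q)) := by
    intro b
    obtain ⟨v', h1, h2⟩ := perturb P b (V b) (fun q => 0 < xc b (V b) q) (fun q _ _ h => h)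
    exact ⟨v', fun _ => ⟨h1, h2⟩⟩
  choose V' hV' using hex
  set G : ℝ × ℝ → ℝ × ℝ → ℝ := fun b q =>
    if IsHalving P b q then (if 0 < xc b (V' b) q then w b else -w b) else 0 with hG
  have hrow : ∀ b ∈ P, ∑ q ∈ P, G b q ≤ w b := by
    intro b hb
    obtain ⟨hgen, -⟩ := hV' b hb
    have h1 : ∑ q ∈ P, G b q = w b *
        (((P.filter (fun q => IsHalving P b q ∧ 0 < xc b (V' b) q)).card : ℝ) -
          (P.filter (fun q => IsHalving P b q ∧ xc b (V' b) q < 0)).card) := by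
      rw [Finset.card_filter, Finset.card_filter, Nat.cast_sum, Nat.cast_sum,
        ← Finset.sum_sub_distrib, Finset.mul_sum]
      refine Finset.sum_congr rfl (fun q hq => ?_)
      simp only [hG]
      by_cases hH : IsHalving P b q
      · have hne : xc b (V' b) q ≠ 0 := hgen q hq (Ne.symm hH.1)
        by_cases hl : 0 < xc b (V' b) q
        · simp [hH, hl, not_lt.mpr hl.le]
        · have hl' : xc b (V' b) q < 0 := lt_of_le_of_ne (not_lt.mp hl) hne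
          simp [hH, hl, hl']
      · simp [hH]
    rw [h1]
    have hv := vertex P hP b (V' b) hb hgen
    have hv' : ((P.filter (fun q => IsHalving P b q ∧ 0 < xc b (V' b) q)).card : ℝ) ≤
        (P.filter (fun q => IsHalving P b q ∧ xc b (V' b) q < 0)).card + 1 := by
      exact_mod_cast hv
    have hwb := hw b hb
    nlinarith
  have hpt : ∀ b ∈ P, ∀ q ∈ P, (if IsHalving P b q then g b q else 0) ≤ G b q + G q b := by
    intro b hb q hq
    simp only [hG]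
    by_cases hH : IsHalving P b q
    · have hH' := isHalving_symm P b q hH
      have hbq : b ≠ q := hH.1
      rw [if_pos hH, if_pos hH, if_pos hH']
      obtain ⟨-, hkb⟩ := hV' b hb
      obtain ⟨-, hkq⟩ := hV' q hq
      by_cases h1 : 0 < xc b (V' b) q
      · by_cases h2 : 0 < xc q (V' q) b
        · rw [if_pos h1, if_pos h2]
          exact hpos b hb q hq hbq
        · rw [if_pos h1, if_neg h2]
          have h3 : xc q (V q) b ≤ 0 := by
            by_contra hc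
            exact h2 (hkq b hb hbq (not_le.mp hc))
          have h4 := hneg q hq b hb (Ne.symm hbq) h3
          rw [hsymm b q]
          linarith
      · have h3 : xc b (V b) q ≤ 0 := by
          by_contra hc
          exact h1 (hkb q hq (Ne.symm hbq) (not_le.mp hc))
        have h5 : 0 < xc q (V q) b := by
          have := hsum b hb q hq hbq
          linarith
        have h2 : 0 < xc q (V' q) b := hkq b hb hbq h5
        rw [if_neg h1, if_pos h2]
        have h4 := hneg b hb q hq hbq h3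
        linarith
    · have hH' : ¬ IsHalving P q b := fun h => hH (isHalving_symm P q b h)
      rw [if_neg hH, if_neg hH, if_neg hH']
      simp
  rw [sum_halving_pairs P g]
  have hcomm : ∑ b ∈ P, ∑ q ∈ P, G q b = ∑ b ∈ P, ∑ q ∈ P, G b q :=
    Finset.sum_comm (f := fun b q => G q b)
  have hA : ∑ b ∈ P, ∑ q ∈ P, (if IsHalving P b q then g b q else 0) ≤
      ∑ b ∈ P, ∑ q ∈ P, (G b q + G q b) :=
    Finset.sum_le_sum (fun b hb => Finset.sum_le_sum (fun q hq => hpt b hb q hq))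
  simp only [Finset.sum_add_distrib] at hA
  rw [hcomm] at hA
  have hB := Finset.sum_le_sum hrow
  linarith

/-- The second-moment bound for the positive definite form
`(u.1 * z.1 + u.2 * z.2) ^ 2 + ε * (z.1 ^ 2 + z.2 ^ 2)`. -/
theorem second_moment_pd (P : Finset (ℝ × ℝ)) (hP : GenPos P) (c u : ℝ × ℝ) (ε : ℝ)
    (hε : 0 < ε) :
    ∑ pq ∈ P.offDiag.filter (fun pq => IsHalving P pq.1 pq.2),
        ((u.1 * (pq.1.1 - pq.2.1) + u.2 * (pq.1.2 - pq.2.2)) ^ 2 +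
          ε * ((pq.1.1 - pq.2.1) ^ 2 + (pq.1.2 - pq.2.2) ^ 2)) ≤
      4 * ∑ b ∈ P, ((u.1 * (b.1 - c.1) + u.2 * (b.2 - c.2)) ^ 2 +
          ε * ((b.1 - c.1) ^ 2 + (b.2 - c.2) ^ 2)) := by
  have key := weighted_count P hP
    (fun b => (u.1 * (b.1 - c.1) + u.2 * (b.2 - c.2)) ^ 2 +
          ε * ((b.1 - c.1) ^ 2 + (b.2 - c.2) ^ 2))
    (fun b => (-((u.1 * (b.1 - c.1) + u.2 * (b.2 - c.2)) * u.1 + ε * (b.1 - c.1)),
      -((u.1 * (b.1 - c.1) + u.2 * (b.2 - c.2)) * u.2 + ε * (b.2 - c.2))))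
    (fun b q => ((u.1 * (b.1 - q.1) + u.2 * (b.2 - q.2)) ^ 2 +
          ε * ((b.1 - q.1) ^ 2 + (b.2 - q.2) ^ 2)) / 2)
    (fun b _ => by positivity)
    (fun b _ q _ hbq => by
      have hid : xc b (-((u.1 * (b.1 - c.1) + u.2 * (b.2 - c.2)) * u.1 + ε * (b.1 - c.1)),
          -((u.1 * (b.1 - c.1) + u.2 * (b.2 - c.2)) * u.2 + ε * (b.2 - c.2))) q +
          xc q (-((u.1 * (q.1 - c.1) + u.2 * (q.2 - c.2)) * u.1 + ε * (q.1 - c.1)),
          -((u.1 * (q.1 - c.1) + u.2 * (q.2 - c.2)) * u.2 + ε * (q.2 - c.2))) b =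
          (u.1 * (b.1 - q.1) + u.2 * (b.2 - q.2)) ^ 2 +
          ε * ((b.1 - q.1) ^ 2 + (b.2 - q.2) ^ 2) := by
        unfold xc; ring
      rw [hid]
      have hd : 0 < (b.1 - q.1) ^ 2 + (b.2 - q.2) ^ 2 := by
        by_contra hc
        have h0 : (b.1 - q.1) ^ 2 + (b.2 - q.2) ^ 2 = 0 :=
          le_antisymm (not_lt.mp hc) (by positivity)
        have h1 : b.1 - q.1 = 0 := by nlinarith [sq_nonneg (b.1 - q.1), sq_nonneg (b.2 - q.2)]
        have h2 : b.2 - q.2 = 0 := by nlinarith [sq_nonneg (b.1 - q.1), sq_nonneg (b.2 - q.2)]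
        exact hbq (Prod.ext (sub_eq_zero.1 h1) (sub_eq_zero.1 h2))
      have := mul_pos hε hd
      nlinarith [sq_nonneg (u.1 * (b.1 - q.1) + u.2 * (b.2 - q.2))])
    (fun b _ q _ _ hle => by
      have hid : ((u.1 * (q.1 - c.1) + u.2 * (q.2 - c.2)) ^ 2 +
          ε * ((q.1 - c.1) ^ 2 + (q.2 - c.2) ^ 2)) -
          ((u.1 * (b.1 - c.1) + u.2 * (b.2 - c.2)) ^ 2 +
          ε * ((b.1 - c.1) ^ 2 + (b.2 - c.2) ^ 2)) =
          ((u.1 * (b.1 - q.1) + u.2 * (b.2 - q.2)) ^ 2 +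
          ε * ((b.1 - q.1) ^ 2 + (b.2 - q.2) ^ 2)) -
          2 * xc b (-((u.1 * (b.1 - c.1) + u.2 * (b.2 - c.2)) * u.1 + ε * (b.1 - c.1)),
          -((u.1 * (b.1 - c.1) + u.2 * (b.2 - c.2)) * u.2 + ε * (b.2 - c.2))) q := by
        unfold xc; ring
      have hnn : 0 ≤ (u.1 * (b.1 - q.1) + u.2 * (b.2 - q.2)) ^ 2 +
          ε * ((b.1 - q.1) ^ 2 + (b.2 - q.2) ^ 2) := by positivity
      show _ / 2 ≤ _ - _
      rw [hid]
      linarith)
    (fun b _ q _ _ => by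
      have hid : ((u.1 * (b.1 - c.1) + u.2 * (b.2 - c.2)) ^ 2 +
          ε * ((b.1 - c.1) ^ 2 + (b.2 - c.2) ^ 2)) +
          ((u.1 * (q.1 - c.1) + u.2 * (q.2 - c.2)) ^ 2 +
          ε * ((q.1 - c.1) ^ 2 + (q.2 - c.2) ^ 2)) -
          ((u.1 * (b.1 - q.1) + u.2 * (b.2 - q.2)) ^ 2 +
          ε * ((b.1 - q.1) ^ 2 + (b.2 - q.2) ^ 2)) / 2 =
          ((u.1 * ((b.1 - c.1) + (q.1 - c.1)) + u.2 * ((b.2 - c.2) + (q.2 - c.2))) ^ 2 +
          ε * (((b.1 - c.1) + (q.1 - c.1)) ^ 2 + ((b.2 - c.2) + (q.2 - c.2)) ^ 2)) / 2 := by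
        ring
      have hnn : 0 ≤ ((u.1 * ((b.1 - c.1) + (q.1 - c.1)) + u.2 * ((b.2 - c.2) + (q.2 - c.2))) ^ 2 +
          ε * (((b.1 - c.1) + (q.1 - c.1)) ^ 2 + ((b.2 - c.2) + (q.2 - c.2)) ^ 2)) / 2 := by
        positivity
      show _ / 2 ≤ _ + _
      linarith)
    (fun b q => by ring)
  have hL : ∑ pq ∈ P.offDiag.filter (fun pq => IsHalving P pq.1 pq.2),
        ((u.1 * (pq.1.1 - pq.2.1) + u.2 * (pq.1.2 - pq.2.2)) ^ 2 +
          ε * ((pq.1.1 - pq.2.1) ^ 2 + (pq.1.2 - pq.2.2) ^ 2)) =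
      2 * ∑ pq ∈ P.offDiag.filter (fun pq => IsHalving P pq.1 pq.2),
        ((u.1 * (pq.1.1 - pq.2.1) + u.2 * (pq.1.2 - pq.2.2)) ^ 2 +
          ε * ((pq.1.1 - pq.2.1) ^ 2 + (pq.1.2 - pq.2.2) ^ 2)) / 2 := by
    rw [Finset.mul_sum]
    refine Finset.sum_congr rfl (fun pq _ => ?_)
    ring
  rw [hL]
  linarith

/-- Directional second-moment bound: for every vector `u` and every centre `c`, the sum of the
squared `u`-components of the ordered halving pairs is at most four times the sum of the squared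
`u`-components of the points about `c`. -/
theorem second_moment_dir (P : Finset (ℝ × ℝ)) (hP : GenPos P) (c u : ℝ × ℝ) :
    ∑ pq ∈ P.offDiag.filter (fun pq => IsHalving P pq.1 pq.2),
        (u.1 * (pq.1.1 - pq.2.1) + u.2 * (pq.1.2 - pq.2.2)) ^ 2 ≤
      4 * ∑ b ∈ P, (u.1 * (b.1 - c.1) + u.2 * (b.2 - c.2)) ^ 2 := by
  apply le_of_forall_pos_le_add
  intro δ hδ
  set K : ℝ := ∑ b ∈ P, ((b.1 - c.1) ^ 2 + (b.2 - c.2) ^ 2) with hK
  set S : ℝ := ∑ pq ∈ P.offDiag.filter (fun pq => IsHalving P pq.1 pq.2),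
      ((pq.1.1 - pq.2.1) ^ 2 + (pq.1.2 - pq.2.2) ^ 2) with hS
  have hK0 : 0 ≤ K := Finset.sum_nonneg (fun b _ => by positivity)
  have hS0 : 0 ≤ S := Finset.sum_nonneg (fun pq _ => by positivity)
  have hε : 0 < δ / (4 * K + 1) := by positivity
  have h := second_moment_pd P hP c u (δ / (4 * K + 1)) hε
  rw [Finset.sum_add_distrib, Finset.sum_add_distrib, ← Finset.mul_sum, ← Finset.mul_sum,
    ← hK, ← hS] at h
  have h1 : 0 ≤ δ / (4 * K + 1) * S := mul_nonneg hε.le hS0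
  have h2 : 4 * (δ / (4 * K + 1) * K) ≤ δ := by
    have h3 : 4 * (δ / (4 * K + 1) * K) = δ * (4 * K / (4 * K + 1)) := by
      field_simp
    rw [h3]
    have h4 : 4 * K / (4 * K + 1) ≤ 1 := by
      rw [div_le_one (by positivity)]
      linarith
    nlinarith
  linarith

/-- Euclidean second-moment bound: the sum of the squared lengths of the ordered halving pairs
is at most four times the sum of the squared distances of the points from any centre `c`. -/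
theorem second_moment_euclid (P : Finset (ℝ × ℝ)) (hP : GenPos P) (c : ℝ × ℝ) :
    ∑ pq ∈ P.offDiag.filter (fun pq => IsHalving P pq.1 pq.2),
        ((pq.1.1 - pq.2.1) ^ 2 + (pq.1.2 - pq.2.2) ^ 2) ≤
      4 * ∑ b ∈ P, ((b.1 - c.1) ^ 2 + (b.2 - c.2) ^ 2) := by
  have h := second_moment_pd P hP c (0, 0) 1 one_pos
  simpa using h

/-- Strip lemma: for every centre `c`, at most `|P|` ordered halving pairs `(b, q)` (that is,
at most `|P| / 2` halving lines) see `c` under acute angles at both `b` and `q`, which means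
that the foot of the perpendicular from `c` lies strictly between `b` and `q`. -/
theorem strip_count (P : Finset (ℝ × ℝ)) (hP : GenPos P) (c : ℝ × ℝ) :
    (P.offDiag.filter (fun pq => IsHalving P pq.1 pq.2 ∧
      0 < (c.1 - pq.1.1) * (pq.2.1 - pq.1.1) + (c.2 - pq.1.2) * (pq.2.2 - pq.1.2) ∧
      0 < (c.1 - pq.2.1) * (pq.1.1 - pq.2.1) + (c.2 - pq.2.2) * (pq.1.2 - pq.2.2))).card ≤
      P.card := by
  have key := weighted_count P hP (fun _ => (1 / 2 : ℝ))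
    (fun b => (c.1 - b.1, c.2 - b.2))
    (fun b q => if 0 < (c.1 - b.1) * (q.1 - b.1) + (c.2 - b.2) * (q.2 - b.2) ∧
      0 < (c.1 - q.1) * (b.1 - q.1) + (c.2 - q.2) * (b.2 - q.2) then (1 : ℝ) else 0)
    (fun b _ => by norm_num)
    (fun b _ q _ hbq => by
      have hid : xc b (c.1 - b.1, c.2 - b.2) q + xc q (c.1 - q.1, c.2 - q.2) b =
          (b.1 - q.1) ^ 2 + (b.2 - q.2) ^ 2 := by
        unfold xc; ring
      rw [hid]
      by_contra hc
      have h0 : (b.1 - q.1) ^ 2 + (b.2 - q.2) ^ 2 = 0 :=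
        le_antisymm (not_lt.mp hc) (by positivity)
      have h1 : b.1 - q.1 = 0 := by nlinarith [sq_nonneg (b.1 - q.1), sq_nonneg (b.2 - q.2)]
      have h2 : b.2 - q.2 = 0 := by nlinarith [sq_nonneg (b.1 - q.1), sq_nonneg (b.2 - q.2)]
      exact hbq (Prod.ext (sub_eq_zero.1 h1) (sub_eq_zero.1 h2)))
    (fun b _ q _ _ hle => by
      have hle' : ¬ (0 < (c.1 - b.1) * (q.1 - b.1) + (c.2 - b.2) * (q.2 - b.2)) := by
        have : xc b (c.1 - b.1, c.2 - b.2) q =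
            (c.1 - b.1) * (q.1 - b.1) + (c.2 - b.2) * (q.2 - b.2) := rfl
        rw [← this]
        exact not_lt.mpr hle
      show (if _ then (1 : ℝ) else 0) ≤ _
      rw [if_neg (fun h => hle' h.1)]
      norm_num)
    (fun b _ q _ _ => by
      show (if _ then (1 : ℝ) else 0) ≤ _
      split_ifs <;> norm_num)
    (fun b q => by
      show (if _ then (1 : ℝ) else 0) = (if _ then (1 : ℝ) else 0)
      by_cases h1 : 0 < (c.1 - b.1) * (q.1 - b.1) + (c.2 - b.2) * (q.2 - b.2)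
      · by_cases h2 : 0 < (c.1 - q.1) * (b.1 - q.1) + (c.2 - q.2) * (b.2 - q.2)
        · rw [if_pos ⟨h1, h2⟩, if_pos ⟨h2, h1⟩]
        · rw [if_neg (fun h => h2 h.2), if_neg (fun h => h2 h.1)]
      · rw [if_neg (fun h => h1 h.1), if_neg (fun h => h1 h.2)])
  have hcard : ((P.offDiag.filter (fun pq => IsHalving P pq.1 pq.2 ∧
      0 < (c.1 - pq.1.1) * (pq.2.1 - pq.1.1) + (c.2 - pq.1.2) * (pq.2.2 - pq.1.2) ∧
      0 < (c.1 - pq.2.1) * (pq.1.1 - pq.2.1) + (c.2 - pq.2.2) * (pq.1.2 - pq.2.2))).card : ℝ) =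
      ∑ pq ∈ P.offDiag.filter (fun pq => IsHalving P pq.1 pq.2),
        (if 0 < (c.1 - pq.1.1) * (pq.2.1 - pq.1.1) + (c.2 - pq.1.2) * (pq.2.2 - pq.1.2) ∧
          0 < (c.1 - pq.2.1) * (pq.1.1 - pq.2.1) + (c.2 - pq.2.2) * (pq.1.2 - pq.2.2)
          then (1 : ℝ) else 0) := by
    rw [Finset.sum_boole, Finset.filter_filter]
  have hfin : ((P.offDiag.filter (fun pq => IsHalving P pq.1 pq.2 ∧
      0 < (c.1 - pq.1.1) * (pq.2.1 - pq.1.1) + (c.2 - pq.1.2) * (pq.2.2 - pq.1.2) ∧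
      0 < (c.1 - pq.2.1) * (pq.1.1 - pq.2.1) + (c.2 - pq.2.2) * (pq.1.2 - pq.2.2))).card : ℝ) ≤
      P.card := by
    rw [hcard]
    have h2 : (2 : ℝ) * ∑ b ∈ P, (1 / 2 : ℝ) = P.card := by
      rw [Finset.sum_const, nsmul_eq_mul]; ring
    linarith
  exact_mod_cast hfin

/-- Disc corollary of the strip lemma: for every disc of radius `ρ` about `c`, at most `|P|`
ordered halving pairs (at most `|P| / 2` halving lines) join two points of the disc at distance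
greater than `ρ`. -/
theorem disc_count (P : Finset (ℝ × ℝ)) (hP : GenPos P) (c : ℝ × ℝ) (ρ : ℝ) :
    (P.offDiag.filter (fun pq => IsHalving P pq.1 pq.2 ∧
      (pq.1.1 - c.1) ^ 2 + (pq.1.2 - c.2) ^ 2 ≤ ρ ^ 2 ∧
      (pq.2.1 - c.1) ^ 2 + (pq.2.2 - c.2) ^ 2 ≤ ρ ^ 2 ∧
      ρ ^ 2 < (pq.1.1 - pq.2.1) ^ 2 + (pq.1.2 - pq.2.2) ^ 2)).card ≤ P.card := by
  refine le_trans (Finset.card_le_card ?_) (strip_count P hP c)
  intro pq hpq
  obtain ⟨hmem, hH, h1, h2, h3⟩ := Finset.mem_filter.1 hpq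
  refine Finset.mem_filter.2 ⟨hmem, hH, ?_, ?_⟩
  · have hid : (pq.2.1 - c.1) ^ 2 + (pq.2.2 - c.2) ^ 2 =
        (pq.1.1 - c.1) ^ 2 + (pq.1.2 - c.2) ^ 2 +
          ((pq.1.1 - pq.2.1) ^ 2 + (pq.1.2 - pq.2.2) ^ 2) -
          2 * ((c.1 - pq.1.1) * (pq.2.1 - pq.1.1) + (c.2 - pq.1.2) * (pq.2.2 - pq.1.2)) := by
      ring
    nlinarith [sq_nonneg (pq.1.1 - c.1), sq_nonneg (pq.1.2 - c.2)]
  · have hid : (pq.1.1 - c.1) ^ 2 + (pq.1.2 - c.2) ^ 2 =
        (pq.2.1 - c.1) ^ 2 + (pq.2.2 - c.2) ^ 2 +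
          ((pq.1.1 - pq.2.1) ^ 2 + (pq.1.2 - pq.2.2) ^ 2) -
          2 * ((c.1 - pq.2.1) * (pq.1.1 - pq.2.1) + (c.2 - pq.2.2) * (pq.1.2 - pq.2.2)) := by
      ring
    nlinarith [sq_nonneg (pq.2.1 - c.1), sq_nonneg (pq.2.2 - c.2)]

end Vale.Agent.Lib.P065
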