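import Vale.Agent.Lib.P065.helper93.Walk

/-!
Vertex lemma for P065 (layered halving bound, report 1566, step (A)).

`P` a finite planar point set, `b` a point, `v` a direction with `<v, q - b> ≠ 0`
for all `q ∈ P`, `q ≠ b`, general position at `b`.  Among the points `q` whose line
`b q` has as many points of `P` strictly on its left as strictly on its right, those on
the positive side of `v` are at most those on the negative side, plus one.
-/

namespace Vale.Agent.Lib.P065.H93

open Finset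

/-- sign of a real number as an integer -/
noncomputable def sgn (t : ℝ) : ℤ := if 0 < t then 1 else if t < 0 then -1 else 0

lemma sgn_pos {t : ℝ} (h : 0 < t) : sgn t = 1 := by simp [sgn, h]

lemma sgn_neg {t : ℝ} (h : t < 0) : sgn t = -1 := by simp [sgn, h, not_lt.2 h.le]

lemma sgn_zero : sgn 0 = 0 := by simp [sgn]

lemma sgn_mul (a b : ℝ) : sgn (a * b) = sgn a * sgn b := by
  rcases lt_trichotomy a 0 with ha | ha | ha <;> rcases lt_trichotomy b 0 with hb | hb | hb
  · rw [sgn_neg ha, sgn_neg hb, sgn_pos (mul_pos_of_neg_of_neg ha hb)]; norm_num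
  · subst hb; simp [sgn_zero]
  · rw [sgn_neg ha, sgn_pos hb, sgn_neg (mul_neg_of_neg_of_pos ha hb)]; norm_num
  · subst ha; simp [sgn_zero]
  · subst ha; simp [sgn_zero]
  · subst ha; simp [sgn_zero]
  · rw [sgn_pos ha, sgn_neg hb, sgn_neg (mul_neg_of_pos_of_neg ha hb)]; norm_num
  · subst hb; simp [sgn_zero]
  · rw [sgn_pos ha, sgn_pos hb, sgn_pos (mul_pos ha hb)]; norm_num

lemma ite_sub_ite_eq_sgn (t : ℝ) :
    ((if 0 < t then (1 : ℤ) else 0) - (if t < 0 then 1 else 0)) = sgn t := by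
  rcases lt_trichotomy t 0 with h | h | h
  · rw [sgn_neg h, if_neg (not_lt.2 h.le), if_pos h]; norm_num
  · subst h; simp [sgn_zero]
  · rw [sgn_pos h, if_pos h, if_neg (not_lt.2 h.le)]; norm_num

/-- first coordinate in the frame of `v` at `b` -/
noncomputable def xc (v b q : ℝ × ℝ) : ℝ := v.1 * (q.1 - b.1) + v.2 * (q.2 - b.2)

/-- second coordinate in the frame of `v` at `b` -/
noncomputable def yc (v b q : ℝ × ℝ) : ℝ := -v.2 * (q.1 - b.1) + v.1 * (q.2 - b.2)

/-- slope key -/
noncomputable def key (v b q : ℝ × ℝ) : ℝ := yc v b q / xc v b q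

/-- side of `q` with respect to `v` -/
noncomputable def sg (v b q : ℝ × ℝ) : ℤ := if 0 < xc v b q then 1 else -1

lemma sg_cases (v b q : ℝ × ℝ) : sg v b q = 1 ∨ sg v b q = -1 := by
  unfold sg; split_ifs <;> simp

lemma sgn_xc (v b q : ℝ × ℝ) (h : xc v b q ≠ 0) : sgn (xc v b q) = sg v b q := by
  unfold sg
  rcases lt_or_gt_of_ne h with h1 | h1
  · rw [sgn_neg h1, if_neg (not_lt.2 h1.le)]
  · rw [sgn_pos h1, if_pos h1]

lemma frame_identity (v b q r : ℝ × ℝ) (hq : xc v b q ≠ 0) (hr : xc v b r ≠ 0) :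
    xc v b q * xc v b r * (key v b r - key v b q)
      = (v.1 ^ 2 + v.2 ^ 2) * ((q.1 - b.1) * (r.2 - b.2) - (q.2 - b.2) * (r.1 - b.1)) := by
  have h1 : xc v b q * xc v b r * (key v b r - key v b q)
      = xc v b q * yc v b r - xc v b r * yc v b q := by
    unfold key; field_simp
  rw [h1]; unfold xc yc; ring

/-- The number of points strictly left of the line `b q` minus the number strictly right,
in terms of the running sum of the signs in the order of the slope key. -/
theorem side_diff (P : Finset (ℝ × ℝ)) (b : ℝ × ℝ)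
    (hgp : ∀ q ∈ P, ∀ r ∈ P, q ≠ b → r ≠ b → q ≠ r →
      (q.1 - b.1) * (r.2 - b.2) - (q.2 - b.2) * (r.1 - b.1) ≠ 0)
    (v : ℝ × ℝ) (hv : ∀ q ∈ P, q ≠ b → v.1 * (q.1 - b.1) + v.2 * (q.2 - b.2) ≠ 0)
    (q : ℝ × ℝ) (hq : q ∈ P) (hqb : q ≠ b) :
    ((P.filter (fun r => 0 < (q.1 - b.1) * (r.2 - b.2) - (q.2 - b.2) * (r.1 - b.1))).card : ℤ)
      - (P.filter (fun r => (q.1 - b.1) * (r.2 - b.2) - (q.2 - b.2) * (r.1 - b.1) < 0)).card
    = sg v b q * ((∑ r ∈ P.erase b, sg v b r) - sg v b q
        - 2 * ∑ r ∈ (P.erase b).filter (fun r => key v b r < key v b q), sg v b r) := by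
  classical
  have hx : ∀ r ∈ P, r ≠ b → xc v b r ≠ 0 := fun r hr hrb => hv r hr hrb
  have hxq : xc v b q ≠ 0 := hx q hq hqb
  -- the squared length of v is positive
  have hN : 0 < v.1 ^ 2 + v.2 ^ 2 := by
    by_contra hN
    have h1 : v.1 = 0 := by nlinarith [sq_nonneg v.1, sq_nonneg v.2]
    have h2 : v.2 = 0 := by nlinarith [sq_nonneg v.1, sq_nonneg v.2]
    apply hxq
    unfold xc
    rw [h1, h2]; ring
  -- the key is injective
  have hinj : ∀ r ∈ P, r ≠ b → key v b r = key v b q → r = q := by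
    intro r hr hrb hk
    by_contra hne
    have h1 := frame_identity v b q r hxq (hx r hr hrb)
    rw [hk, sub_self, mul_zero] at h1
    have h2 := hgp q hq r hr hqb hrb (fun h => hne h.symm)
    have h3 : (v.1 ^ 2 + v.2 ^ 2) *
        ((q.1 - b.1) * (r.2 - b.2) - (q.2 - b.2) * (r.1 - b.1)) ≠ 0 :=
      mul_ne_zero (ne_of_gt hN) h2
    exact h3 h1.symm
  -- sign of the cross product
  have hsign : ∀ r ∈ P.erase b,
      sgn ((q.1 - b.1) * (r.2 - b.2) - (q.2 - b.2) * (r.1 - b.1))
        = sg v b q * (sg v b r * sgn (key v b r - key v b q)) := by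
    intro r hr
    obtain ⟨hrb, hrP⟩ := Finset.mem_erase.1 hr
    have h1 := frame_identity v b q r hxq (hx r hrP hrb)
    have h2 : sgn ((q.1 - b.1) * (r.2 - b.2) - (q.2 - b.2) * (r.1 - b.1))
        = sgn ((v.1 ^ 2 + v.2 ^ 2) *
            ((q.1 - b.1) * (r.2 - b.2) - (q.2 - b.2) * (r.1 - b.1))) := by
      rw [sgn_mul, sgn_pos hN, one_mul]
    rw [h2, ← h1, sgn_mul, sgn_mul, sgn_xc v b q hxq, sgn_xc v b r (hx r hrP hrb), mul_assoc]
  -- the count difference as a sum of signs
  have hcount : ((P.filter (fun r => 0 < (q.1 - b.1) * (r.2 - b.2)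
        - (q.2 - b.2) * (r.1 - b.1))).card : ℤ)
      - (P.filter (fun r => (q.1 - b.1) * (r.2 - b.2) - (q.2 - b.2) * (r.1 - b.1) < 0)).card
      = ∑ r ∈ P, sgn ((q.1 - b.1) * (r.2 - b.2) - (q.2 - b.2) * (r.1 - b.1)) := by
    rw [Finset.card_filter, Finset.card_filter]
    push_cast
    rw [← Finset.sum_sub_distrib]
    exact Finset.sum_congr rfl (fun r _ => ite_sub_ite_eq_sgn _)
  have herase : ∑ r ∈ P, sgn ((q.1 - b.1) * (r.2 - b.2) - (q.2 - b.2) * (r.1 - b.1))
      = ∑ r ∈ P.erase b, sgn ((q.1 - b.1) * (r.2 - b.2) - (q.2 - b.2) * (r.1 - b.1)) := by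
    refine (Finset.sum_erase P ?_).symm
    have : (q.1 - b.1) * (b.2 - b.2) - (q.2 - b.2) * (b.1 - b.1) = 0 := by ring
    rw [this, sgn_zero]
  have hqQ : q ∈ P.erase b := Finset.mem_erase.2 ⟨hqb, hq⟩
  -- splitting the sum by the order of the keys
  have hpt : ∀ r ∈ P.erase b, sg v b r * sgn (key v b r - key v b q)
      = (if key v b q < key v b r then sg v b r else 0)
        - (if key v b r < key v b q then sg v b r else 0) := by
    intro r _
    rcases lt_trichotomy (key v b r) (key v b q) with h | h | h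
    · rw [sgn_neg (sub_neg.2 h), if_neg (not_lt.2 h.le), if_pos h]; ring
    · rw [h, sub_self, sgn_zero, if_neg (lt_irrefl _)]; ring
    · rw [sgn_pos (sub_pos.2 h), if_pos h, if_neg (not_lt.2 h.le)]; ring
  have htri : ∀ r ∈ P.erase b, sg v b r
      = (if key v b r < key v b q then sg v b r else 0)
        + (if r = q then sg v b r else 0)
        + (if key v b q < key v b r then sg v b r else 0) := by
    intro r hr
    obtain ⟨hrb, hrP⟩ := Finset.mem_erase.1 hr
    rcases lt_trichotomy (key v b r) (key v b q) with h | h | h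
    · have hne : r ≠ q := fun e => by rw [e] at h; exact lt_irrefl _ h
      rw [if_pos h, if_neg hne, if_neg (not_lt.2 h.le)]; ring
    · have he : r = q := hinj r hrP hrb h
      rw [if_pos he, h, if_neg (lt_irrefl _)]; ring
    · have hne : r ≠ q := fun e => by rw [e] at h; exact lt_irrefl _ h
      rw [if_neg (not_lt.2 h.le), if_neg hne, if_pos h]; ring
  have hT : ∑ r ∈ P.erase b, sg v b r
      = (∑ r ∈ (P.erase b).filter (fun r => key v b r < key v b q), sg v b r)
        + sg v b q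
        + ∑ r ∈ (P.erase b).filter (fun r => key v b q < key v b r), sg v b r := by
    rw [Finset.sum_congr rfl htri, Finset.sum_add_distrib, Finset.sum_add_distrib,
      Finset.sum_ite_eq', if_pos hqQ, Finset.sum_filter, Finset.sum_filter]
  rw [hcount, herase, Finset.sum_congr rfl hsign, ← Finset.mul_sum,
    Finset.sum_congr rfl hpt, Finset.sum_sub_distrib, ← Finset.sum_filter, ← Finset.sum_filter,
    hT]
  ring

/-- Vertex lemma (A). `H q` says that the line `b q` has as many points of `P` strictly on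
its left as strictly on its right. -/
theorem vertex_lemma (P : Finset (ℝ × ℝ)) (b : ℝ × ℝ)
    (hgp : ∀ q ∈ P, ∀ r ∈ P, q ≠ b → r ≠ b → q ≠ r →
      (q.1 - b.1) * (r.2 - b.2) - (q.2 - b.2) * (r.1 - b.1) ≠ 0)
    (v : ℝ × ℝ) (hv : ∀ q ∈ P, q ≠ b → v.1 * (q.1 - b.1) + v.2 * (q.2 - b.2) ≠ 0)
    (H : ℝ × ℝ → Prop) [DecidablePred H]
    (hH : ∀ q ∈ P, q ≠ b → (H q ↔
      (P.filter (fun r => 0 < (q.1 - b.1) * (r.2 - b.2) - (q.2 - b.2) * (r.1 - b.1))).card
        = (P.filter (fun r => (q.1 - b.1) * (r.2 - b.2) - (q.2 - b.2) * (r.1 - b.1) < 0)).card)) :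
    (P.filter (fun q => q ≠ b ∧ H q ∧ 0 < v.1 * (q.1 - b.1) + v.2 * (q.2 - b.2))).card
      ≤ (P.filter (fun q => q ≠ b ∧ H q ∧ v.1 * (q.1 - b.1) + v.2 * (q.2 - b.2) < 0)).card + 1 := by
  classical
  -- characterisation of H through the running sums
  have hchar : ∀ q ∈ P, q ≠ b → (H q ↔
      (∑ r ∈ P.erase b, sg v b r) = 2 * (∑ r ∈ (P.erase b).filter
        (fun r => key v b r < key v b q), sg v b r) + sg v b q) := by
    intro q hq hqb
    rw [hH q hq hqb]
    have hd := side_diff P b hgp v hv q hq hqb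
    constructor
    · intro h
      rw [h, sub_self] at hd
      rcases sg_cases v b q with h1 | h1
      · rw [h1] at hd ⊢; linarith
      · rw [h1] at hd ⊢; linarith
    · intro h
      have h0 : sg v b q * ((∑ r ∈ P.erase b, sg v b r) - sg v b q
          - 2 * ∑ r ∈ (P.erase b).filter (fun r => key v b r < key v b q), sg v b r) = 0 := by
        rw [h]; ring
      rw [h0] at hd
      exact_mod_cast sub_eq_zero.1 hd
  by_cases hne : (P.filter (fun q => q ≠ b ∧ H q ∧
      0 < v.1 * (q.1 - b.1) + v.2 * (q.2 - b.2))).Nonempty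
  · obtain ⟨q0, hq0⟩ := hne
    obtain ⟨hq0P, hq0b, hq0H, hq0pos⟩ := Finset.mem_filter.1 hq0
    have hsg0 : sg v b q0 = 1 := by unfold sg xc; rw [if_pos hq0pos]
    have hT := (hchar q0 hq0P hq0b).1 hq0H
    rw [hsg0] at hT
    -- injectivity of the key on P.erase b
    have hkinj : Set.InjOn (key v b) (P.erase b : Finset (ℝ × ℝ)) := by
      intro r hr s hs hk
      obtain ⟨hrb, hrP⟩ := Finset.mem_erase.1 (Finset.mem_coe.1 hr)
      obtain ⟨hsb, hsP⟩ := Finset.mem_erase.1 (Finset.mem_coe.1 hs)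
      by_contra hne
      have h1 := frame_identity v b r s (hv r hrP hrb) (hv s hsP hsb)
      rw [hk, sub_self, mul_zero] at h1
      have h2 := hgp r hrP s hsP hrb hsb hne
      have hN : 0 < v.1 ^ 2 + v.2 ^ 2 := by
        by_contra hN
        have e1 : v.1 = 0 := by nlinarith [sq_nonneg v.1, sq_nonneg v.2]
        have e2 : v.2 = 0 := by nlinarith [sq_nonneg v.1, sq_nonneg v.2]
        apply hv r hrP hrb
        rw [e1, e2]; ring
      exact (mul_ne_zero (ne_of_gt hN) h2) h1.symm
    have hw := walk_lemma_nat (P.erase b) (key v b) hkinj (sg v b)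
      (fun q _ => sg_cases v b q)
      (∑ r ∈ (P.erase b).filter (fun r => key v b r < key v b q0), sg v b r)
    refine le_trans (Finset.card_le_card ?_) (le_trans hw (Nat.add_le_add_right
      (Finset.card_le_card ?_) 1))
    · intro q hq
      obtain ⟨hqP, hqb, hqH, hqpos⟩ := Finset.mem_filter.1 hq
      have hsgq : sg v b q = 1 := by unfold sg xc; rw [if_pos hqpos]
      have h1 := (hchar q hqP hqb).1 hqH
      rw [hsgq] at h1
      refine Finset.mem_filter.2 ⟨Finset.mem_erase.2 ⟨hqb, hqP⟩, hsgq, ?_⟩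
      linarith
    · intro q hq
      obtain ⟨hqQ, hsgq, hB⟩ := Finset.mem_filter.1 hq
      obtain ⟨hqb, hqP⟩ := Finset.mem_erase.1 hqQ
      have hxne : v.1 * (q.1 - b.1) + v.2 * (q.2 - b.2) ≠ 0 := hv q hqP hqb
      have hneg : v.1 * (q.1 - b.1) + v.2 * (q.2 - b.2) < 0 := by
        rcases lt_or_gt_of_ne hxne with h | h
        · exact h
        · exfalso
          have : sg v b q = 1 := by unfold sg xc; rw [if_pos h]
          rw [this] at hsgq; norm_num at hsgq
      refine Finset.mem_filter.2 ⟨hqP, hqb, ?_, hneg⟩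
      rw [hchar q hqP hqb, hsgq, hB, hT]; ring
  · rw [Finset.not_nonempty_iff_eq_empty.1 hne]
    simp

end Vale.Agent.Lib.P065.H93
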