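import Mathlib

/-!
Walk lemma for P065 (layered halving bound, report 1566, step (W)).

`S` a finite set, `f` an injective real key on `S`, `sg` a sign (`1` or `-1`) on `S`.
The running sum before `q` is `B q = ∑ r ∈ S with f r < f q, sg r`.
Then the number of up-steps from level `c` is at most the number of down-steps
from level `c + 1`, plus one.
-/

namespace Vale.Agent.Lib.P065.H93

open Finset

private lemma card_filter_insert_congr {Q : Type*} [DecidableEq Q] (a : Q) (s : Finset Q)
    (has : a ∉ s) (p p' : Q → Prop) [DecidablePred p] [DecidablePred p']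
    (h : ∀ q ∈ s, (p q ↔ p' q)) :
    ((insert a s).filter p).card = (s.filter p').card + (if p a then 1 else 0) := by
  rw [Finset.filter_insert]
  have h2 : s.filter p = s.filter p' := Finset.filter_congr h
  split_ifs with hpa
  · rw [Finset.card_insert_of_notMem (by simp [has]), h2]
  · rw [h2]; simp

/-- Invariant form of the walk lemma. -/
theorem walk_inv {Q : Type*} [DecidableEq Q] (f : Q → ℝ) (sg : Q → ℤ) (c : ℤ) (S : Finset Q) :
    Set.InjOn f S → (∀ q ∈ S, sg q = 1 ∨ sg q = -1) →
    ((∑ r ∈ S, sg r ≤ c →
      ((S.filter (fun q => sg q = 1 ∧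
          (∑ r ∈ S.filter (fun r => f r < f q), sg r) = c)).card : ℤ) ≤
        (S.filter (fun q => sg q = -1 ∧
          (∑ r ∈ S.filter (fun r => f r < f q), sg r) = c + 1)).card) ∧
      ((S.filter (fun q => sg q = 1 ∧
          (∑ r ∈ S.filter (fun r => f r < f q), sg r) = c)).card : ℤ) ≤
        (S.filter (fun q => sg q = -1 ∧
          (∑ r ∈ S.filter (fun r => f r < f q), sg r) = c + 1)).card + 1) := by
  classical
  induction S using Finset.induction_on_max_value f with
  | empty => intro _ _; simp
  | insert a s has hmax ih =>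
    intro hinj hsg
    have hinj' : Set.InjOn f s := hinj.mono (by
      intro x hx
      exact Finset.mem_coe.2 (Finset.mem_insert_of_mem (Finset.mem_coe.1 hx)))
    have hsg' : ∀ q ∈ s, sg q = 1 ∨ sg q = -1 :=
      fun q hq => hsg q (Finset.mem_insert_of_mem hq)
    obtain ⟨ih1, ih2⟩ := ih hinj' hsg'
    have hlt : ∀ x ∈ s, f x < f a := by
      intro x hx
      rcases lt_or_eq_of_le (hmax x hx) with h | h
      · exact h
      · exfalso
        have h3 := hinj (Finset.mem_coe.2 (Finset.mem_insert_of_mem hx))
          (Finset.mem_coe.2 (Finset.mem_insert_self a s)) h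
        exact has (h3 ▸ hx)
    have hB : ∀ q ∈ s, (∑ r ∈ (insert a s).filter (fun r => f r < f q), sg r)
        = ∑ r ∈ s.filter (fun r => f r < f q), sg r := by
      intro q hq
      rw [Finset.filter_insert, if_neg (not_lt.2 (le_of_lt (hlt q hq)))]
    have hBa : (∑ r ∈ (insert a s).filter (fun r => f r < f a), sg r) = ∑ r ∈ s, sg r := by
      rw [Finset.filter_insert, if_neg (lt_irrefl _), Finset.filter_true_of_mem hlt]
    have hU := card_filter_insert_congr a s has
      (fun q => sg q = 1 ∧ (∑ r ∈ (insert a s).filter (fun r => f r < f q), sg r) = c)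
      (fun q => sg q = 1 ∧ (∑ r ∈ s.filter (fun r => f r < f q), sg r) = c)
      (fun q hq => by rw [hB q hq])
    have hD := card_filter_insert_congr a s has
      (fun q => sg q = -1 ∧ (∑ r ∈ (insert a s).filter (fun r => f r < f q), sg r) = c + 1)
      (fun q => sg q = -1 ∧ (∑ r ∈ s.filter (fun r => f r < f q), sg r) = c + 1)
      (fun q hq => by rw [hB q hq])
    rw [hU, hD, hBa, Finset.sum_insert has]
    have hsa := hsg a (Finset.mem_insert_self a s)
    set T := ∑ r ∈ s, sg r with hT
    set U := (s.filter (fun q => sg q = 1 ∧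
      (∑ r ∈ s.filter (fun r => f r < f q), sg r) = c)).card with hUdef
    set D := (s.filter (fun q => sg q = -1 ∧
      (∑ r ∈ s.filter (fun r => f r < f q), sg r) = c + 1)).card with hDdef
    rcases hsa with h1 | h1
    · rw [h1]
      by_cases hTc : T = c
      · have e1 : (if (1 : ℤ) = 1 ∧ T = c then 1 else 0) = 1 := if_pos ⟨rfl, hTc⟩
        have e2 : (if (1 : ℤ) = -1 ∧ T = c + 1 then 1 else 0) = 0 :=
          if_neg (fun h => by omega)
        rw [e1, e2]
        have := ih1 (le_of_eq hTc)
        push_cast
        constructor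
        · intro h; omega
        · omega
      · have e1 : (if (1 : ℤ) = 1 ∧ T = c then 1 else 0) = 0 := if_neg (fun h => hTc h.2)
        have e2 : (if (1 : ℤ) = -1 ∧ T = c + 1 then 1 else 0) = 0 :=
          if_neg (fun h => by omega)
        rw [e1, e2]
        push_cast
        constructor
        · intro h
          have := ih1 (by omega)
          omega
        · omega
    · rw [h1]
      by_cases hTc : T = c + 1
      · have e1 : (if (-1 : ℤ) = 1 ∧ T = c then 1 else 0) = 0 := if_neg (fun h => by omega)
        have e2 : (if (-1 : ℤ) = -1 ∧ T = c + 1 then 1 else 0) = 1 := if_pos ⟨rfl, hTc⟩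
        rw [e1, e2]
        push_cast
        constructor
        · intro h; omega
        · omega
      · have e1 : (if (-1 : ℤ) = 1 ∧ T = c then 1 else 0) = 0 := if_neg (fun h => by omega)
        have e2 : (if (-1 : ℤ) = -1 ∧ T = c + 1 then 1 else 0) = 0 :=
          if_neg (fun h => hTc h.2)
        rw [e1, e2]
        push_cast
        constructor
        · intro h
          have := ih1 (by omega)
          omega
        · omega

/-- Walk lemma (W): up-steps from level `c` are at most the down-steps from level `c + 1`,
plus one. -/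
theorem walk_lemma {Q : Type*} [DecidableEq Q] (S : Finset Q) (f : Q → ℝ)
    (hf : Set.InjOn f S) (sg : Q → ℤ) (hsg : ∀ q ∈ S, sg q = 1 ∨ sg q = -1) (c : ℤ) :
    ((S.filter (fun q => sg q = 1 ∧
        (∑ r ∈ S.filter (fun r => f r < f q), sg r) = c)).card : ℤ) ≤
      (S.filter (fun q => sg q = -1 ∧
        (∑ r ∈ S.filter (fun r => f r < f q), sg r) = c + 1)).card + 1 :=
  (walk_inv f sg c S hf hsg).2

/-- The same in natural numbers. -/
theorem walk_lemma_nat {Q : Type*} [DecidableEq Q] (S : Finset Q) (f : Q → ℝ)
    (hf : Set.InjOn f S) (sg : Q → ℤ) (hsg : ∀ q ∈ S, sg q = 1 ∨ sg q = -1) (c : ℤ) :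
    (S.filter (fun q => sg q = 1 ∧
        (∑ r ∈ S.filter (fun r => f r < f q), sg r) = c)).card ≤
      (S.filter (fun q => sg q = -1 ∧
        (∑ r ∈ S.filter (fun r => f r < f q), sg r) = c + 1)).card + 1 := by
  have h := walk_lemma S f hf sg hsg c
  exact_mod_cast h

end Vale.Agent.Lib.P065.H93
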